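import Vale.Agent.P103.Bdl.B2

/-!
# P103: Shub's entropy conjecture for `C^1` maps is false
-/

namespace Vale.Agent.Results.P103.Disproof

theorem result : ¬ Vale.Agent.P103.EntropyConjecture :=
  Vale.Agent.P103.main

end Vale.Agent.Results.P103.Disproof
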