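import Vale.Agent.P103.Bdl.B2

/-!
# P103: a `C^1` map with zero topological entropy and eigenvalue `2` on `H_2(M;ℝ)`
-/

namespace Vale.Agent.Results.P103.Explicit

open Vale.Agent.P103
open scoped Manifold ContDiff

theorem result :
    ∃ (E : Type) (_ : NormedAddCommGroup E) (_ : NormedSpace ℝ E) (_ : FiniteDimensional ℝ E)
      (H : Type) (_ : TopologicalSpace H) (I : ModelWithCorners ℝ E H) (_ : I.Boundaryless)
      (M : Type) (_ : MetricSpace M) (_ : ChartedSpace H M) (_ : IsManifold I ∞ M)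
      (_ : CompactSpace M) (_ : ConnectedSpace M) (f : C(M, M)),
      ContMDiff I I 1 f ∧ IsTopEntropy f 0 ∧
        Module.End.HasEigenvalue (homologyMap 2 f) (2 : ℝ) ∧ 2 ≤ rho f := by
  obtain ⟨P⟩ := exists_Par
  have h1 : ConnectedSpace Circle := connectedSpace_circle
  have h2 : ConnectedSpace (Sph ℂ) := connectedSpace_Sph ℂ (n := 2) (by norm_num) Fact.out
  have h3 : ConnectedSpace (Sph P.V) :=
    connectedSpace_Sph P.V (n := 2 * P.p) (by have := P.nt.two_le; omega) Fact.out
  exact ⟨_, _, _, inferInstance, _, _,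
    (𝓡 1).prod ((𝓡 2).prod (𝓡 (2 * P.p))), inferInstance,
    Circle × (Sph ℂ × Sph P.V), _, _, inferInstance, inferInstance, inferInstance,
    (⟨P.fM, P.fM_continuous⟩ : C(_, _)), P.fM_contMDiff, P.fM_entropy, P.hasEigenvalue_two,
    P.two_le_rho⟩

end Vale.Agent.Results.P103.Explicit
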